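import Vale.Agent.P216.B7.Props
import Vale.Agent.P216.H923B2.R7

/-!
# P216-B7, row Z11: infinitely many free homotopy classes (winding numbers)
-/

set_option linter.all false

open Set Filter Topology

namespace Vale.Agent.P216.B7923

open Vale.Agent.P216.L250 Vale.Agent.P216.B7

variable {M : Type} [MetricSpace M]

theorem ex_add (a b : ℝ) : ex (a + b) = ex a * ex b := by
  rw [ex, ex, ex, mul_add, Circle.exp_add]

theorem ex_int (n : ℤ) : ex n = 1 := Circle.exp_two_pi_mul_int n

theorem ex_add_int (a : ℝ) (n : ℤ) : ex (a + n) = ex a := by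
  rw [ex_add, ex_int, mul_one]

theorem ex_eq {a b : ℝ} (h : ex a = ex b) : ∃ n : ℤ, a = b + n := by
  obtain ⟨m, hm⟩ := Circle.exp_eq_exp.1 h
  refine ⟨m, ?_⟩
  have hp : (2 * Real.pi) ≠ 0 := by positivity
  have : 2 * Real.pi * a = 2 * Real.pi * (b + m) := by rw [hm]; ring
  exact mul_left_cancel₀ hp this

theorem ex_arg (z : Circle) : ex (Complex.arg z / (2 * Real.pi)) = z := by
  have hp : (2 * Real.pi) ≠ 0 := by positivity
  rw [ex, mul_div_cancel₀ _ hp]
  exact Circle.exp_arg z

/-- The loop `g` has winding number `n`. -/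
def W (h : C(M, Circle)) (g : LM M) (n : ℤ) : Prop :=
  ∃ r : C(unitInterval, ℝ), (∀ t : unitInterval, ex (r t) = h (g ((t : ℝ) : AddCircle (1 : ℝ)))) ∧
    r 1 = r 0 + n

/-- uniqueness of the winding number -/
theorem W_unique {h : C(M, Circle)} {g : LM M} {m n : ℤ} (h1 : W h g m) (h2 : W h g n) :
    m = n := by
  obtain ⟨r, hr, hr1⟩ := h1
  obtain ⟨r', hr', hr1'⟩ := h2
  have hk : ∀ t, ∃ k : ℤ, r t = r' t + k := fun t => ex_eq ((hr t).trans (hr' t).symm)
  choose k hk using hk
  have hc : Continuous k := by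
    rw [Int.isClosedEmbedding_coe_real.isEmbedding.continuous_iff]
    have : ((fun n : ℤ => (n : ℝ)) ∘ k) = fun t => r t - r' t := by
      funext t
      show (k t : ℝ) = _
      rw [hk t]
      ring
    rw [this]
    exact r.continuous.sub r'.continuous
  have h0 : k 1 = k 0 := PreconnectedSpace.constant inferInstance hc
  have e1 := hk 1
  have e0 := hk 0
  rw [h0] at e1
  have : (m : ℝ) = n := by linarith
  exact_mod_cast this

/-- close loops have the same winding number -/
theorem W_close {h : C(M, Circle)} {g g' : LM M} {n : ℤ} (h1 : W h g n)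
    (hd : ∀ x, dist (h (g x)) (h (g' x)) < 1) : W h g' n := by
  obtain ⟨r, hr, hr1⟩ := h1
  let z : C(AddCircle (1 : ℝ), Circle) :=
    ⟨fun x => h (g' x) / h (g x), (h.continuous.comp g'.continuous).div'
      (h.continuous.comp g.continuous)⟩
  have hz : ∀ x, (z x : ℂ) ∈ Complex.slitPlane := by
    intro x
    have e1 : ‖(z x : ℂ) - 1‖ < 1 := by
      have e2 : (z x : ℂ) - 1 = ((h (g' x) : ℂ) - (h (g x) : ℂ)) / (h (g x) : ℂ) := by
        show ((h (g' x) / h (g x) : Circle) : ℂ) - 1 = _
        rw [Circle.coe_div, sub_div, div_self (Circle.coe_ne_zero _)]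
      rw [e2, norm_div, Circle.norm_coe, div_one, ← dist_eq_norm, dist_comm]
      exact hd x
    have e3 : |((z x : ℂ) - 1).re| < 1 := (Complex.abs_re_le_norm _).trans_lt e1
    rw [Complex.sub_re, Complex.one_re, abs_lt] at e3
    exact Or.inl (by linarith)
  have hzc : Continuous fun x => Complex.arg (z x : ℂ) := by
    rw [continuous_iff_continuousAt]
    intro x
    have e1 : ContinuousAt (fun y => (z y : ℂ)) x :=
      (continuous_subtype_val.comp z.continuous).continuousAt
    exact ContinuousAt.comp' (f := fun y => (z y : ℂ)) (Complex.continuousAt_arg (hz x)) e1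
  refine ⟨⟨fun t => r t + Complex.arg (z ((t : ℝ) : AddCircle (1 : ℝ)) : ℂ) / (2 * Real.pi), ?_⟩,
    fun t => ?_, ?_⟩
  · exact r.continuous.add ((hzc.comp ((AddCircle.continuous_mk' 1).comp
      continuous_subtype_val)).div_const _)
  · show ex (r t + Complex.arg (z ((t : ℝ) : AddCircle (1 : ℝ)) : ℂ) / (2 * Real.pi)) = _
    rw [ex_add, ex_arg, hr t]
    show h (g _) * (h (g' _) / h (g _)) = _
    rw [mul_div_cancel]
  · show r 1 + Complex.arg (z (((1 : unitInterval) : ℝ) : AddCircle (1 : ℝ)) : ℂ) / (2 * Real.pi)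
      = r 0 + Complex.arg (z (((0 : unitInterval) : ℝ) : AddCircle (1 : ℝ)) : ℂ) / (2 * Real.pi)
        + n
    have e1 : (((1 : unitInterval) : ℝ) : AddCircle (1 : ℝ))
        = (((0 : unitInterval) : ℝ) : AddCircle (1 : ℝ)) := by simp
    rw [e1, hr1]
    ring

/-- the winding number is locally constant -/
theorem isClopen_W [CompactSpace M] (h : C(M, Circle)) (n : ℤ) :
    IsClopen {g : LM M | W h g n} := by
  obtain ⟨δ, hδ, hd⟩ := Metric.uniformContinuous_iff.1
    (CompactSpace.uniformContinuous_of_continuous h.continuous) 1 one_pos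
  have key : ∀ g g' : LM M, dist g g' < δ → W h g n → W h g' n := fun g g' hg hW =>
    W_close hW fun x => hd ((ContinuousMap.dist_apply_le_dist x).trans_lt hg)
  constructor
  · rw [← isOpen_compl_iff, Metric.isOpen_iff]
    intro g hg
    exact ⟨δ, hδ, fun g' hg' hW => hg (key g' g hg' hW)⟩
  · rw [Metric.isOpen_iff]
    intro g hg
    exact ⟨δ, hδ, fun g' hg' => key g g' (by rw [dist_comm]; exact hg') hg⟩

theorem W_joined [CompactSpace M] {h : C(M, Circle)} {g g' : LM M} {n : ℤ} (hj : Joined g g')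
    (hW : W h g n) : W h g' n :=
  (isClopen_W h n).connectedComponent_subset hW (pathComponent_subset_component _ hj)

/-- loops of every winding number -/
theorem exists_W {h : C(M, Circle)} (hs : SimplyConnectedSpace (Xt h)) (n : ℤ) :
    ∃ g : LM M, W h g n := by
  obtain ⟨⟨⟨x, r⟩, hp⟩⟩ := (inferInstance : Nonempty (Xt h))
  have hp' : (x, r + n) ∈ Xt h := by
    show h x = ex (r + n)
    rw [ex_add_int]
    exact hp
  obtain ⟨γ⟩ := PathConnectedSpace.joined (⟨(x, r), hp⟩ : Xt h) ⟨(x, r + n), hp'⟩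
  let γ₁ : Path x x :=
    { toFun := fun t => (γ t).1.1
      continuous_toFun := continuous_fst.comp (continuous_subtype_val.comp γ.continuous)
      source' := by rw [γ.source]
      target' := by rw [γ.target] }
  refine ⟨H923B2.R7.ofLoop γ₁, ⟨fun t => (γ t).1.2,
    continuous_snd.comp (continuous_subtype_val.comp γ.continuous)⟩, fun t => ?_, ?_⟩
  · rw [H923B2.R7.ofLoop_apply]
    exact (γ t).2.symm
  · show (γ 1).1.2 = (γ 0).1.2 + n
    rw [γ.target, γ.source]

/-- **Z11**. -/
theorem z11Goal : B7.Z11Goal := by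
  intro M _ _ h hs
  choose g hg using exists_W (h := h) hs
  refine Infinite.of_injective (fun n : ℤ => (Quotient.mk _ (g n) : ZerothHomotopy (LM M))) ?_
  intro m n hmn
  have hj : Joined (g m) (g n) := Quotient.exact hmn
  exact W_unique (W_joined hj (hg m)) (hg n)

end Vale.Agent.P216.B7923
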